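import Vale.Agent.P370Z.Fin.Main

/-!
# P370: the continuum electronic ground-state energy problem is QMA-hard

For every exponent `c` the promise problem (YES: `E₀ ≤ a`, NO: `E₀ ≥ b`, promise `b - a ≥ L^{-c}`)
for point nuclei with rational positions and integer charges is QMA-hard under polynomial time
many-one reductions.
-/

namespace Vale.Agent.Results.P370.QMAHard

open Vale.Agent.P370Z

theorem result : ∀ c : ℕ, QMAHard (yesWords c) (noWords c) := qma_hard

end Vale.Agent.Results.P370.QMAHard
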